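import Vale.Agent.P284.H366.V.Spec
import Vale.Agent.P284.H366.LimF

/-!
# The limit of Hilbert valued sequences: relation, nonvanishing, central elements
-/

open scoped Manifold ContDiff Topology InnerProductSpace ComplexConjugate ENNReal Matrix
open Filter Set MeasureTheory Metric

noncomputable section

set_option linter.unusedSectionVars false

namespace Vale.Agent.P284.H366

open Vale.Agent.P272.K Vale.Agent.P284.H894 Vale.Agent.P284.H894.G Vale.Agent.P284.H894.V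
  Vale.Agent.P284.H894.W Vale.Agent.P284.H501 Vale.Agent.P284.H501.Core Vale.Agent.P284.H619
  Vale.Agent.P284.H402.A Vale.Agent.P284.H402.B Vale.Agent.P284.H551 Vale.Agent.P284.H494
  Vale.Agent.P284.H213.Grp Vale.Agent.P284.H913.V Vale.Agent.P284.H119.Kaz Vale.Agent.P284.H15.FL

section
variable {n p q : ℕ} {Γ : Type} [Group Γ] {C : Coc n Γ} {H : ℕ → Type}
  [∀ k, NormedAddCommGroup (H k)] [∀ k, InnerProductSpace ℂ (H k)] [∀ k, CompleteSpace (H k)]
  {U : Ultrafilter ℕ} {π : ∀ k, Γ →* (H k ≃ₗᵢ[ℂ] H k)}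

/-- the form vanishes on two vertical vectors -/
lemma vtf_zero {H : Type} [NormedAddCommGroup H] [InnerProductSpace ℂ H] (θ : HF C q)
    (u : Γ → C.I → Cm n → H) (γ : Γ) (a : C.I) (z : Cm n) {ξ : Fin (q + 1) → Cm n}
    {i j : Fin (q + 1)} (hij : i ≠ j) (hi : ∀ r, ∑ l, ξ i l * θ.th a z l r = 0)
    (hj : ∀ r, ∑ l, ξ j l * θ.th a z l r = 0) : vtf θ u γ a z ξ = 0 := by
  rw [vtf_apply]
  refine Finset.sum_eq_zero fun l _ => ?_
  rw [wd_bm_zero hij hi hj, zero_smul]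

/-- **Relation.** The limit vanishes if two arguments are vertical (at points of maximal rank). -/
theorem LimV_rel (D : MD C) (θ : HF C q) {u : ∀ k, Γ → C.I → Cm n → H k}
    (h : VSeq C U π fun k => vtf θ (u k)) (γ : Γ) (a : C.I) {z : Cm n}
    (hz : z ∈ D.Q a) (hinj : Function.Injective (θ.th a z).mulVec) {ξ : Fin (q + 1) → Cm n}
    {i j : Fin (q + 1)} (hij : i ≠ j) (hi : ∀ r, ∑ l, ξ i l * θ.th a z l r = 0)
    (hj : ∀ r, ∑ l, ξ j l * θ.th a z l r = 0) :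
    LimV D U (fun k => vtf θ (u k)) γ a z ξ = 0 := by
  have hzΩ : z ∈ C.Ω a := V_sub_Ω C a (D.Q_sub a hz)
  obtain ⟨P, hP, hP0, hPz⟩ := exists_frame (th_mc θ hzΩ) hinj
  classical
  -- the frame
  let Ξ : Fin (q + 1) → Cm n → Cm n := fun m y => if m = i ∨ m = j then P y *ᵥ ξ m else ξ m
  have hΞ : ∀ m, ContDiffAt ℝ 1 (Ξ m) z := by
    intro m
    by_cases hm : m = i ∨ m = j
    · have : Ξ m = fun y => P y *ᵥ ξ m := by funext y; simp [Ξ, hm]
      rw [this]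
      refine contDiffAt_pi.2 fun l => ?_
      simp only [Matrix.mulVec, dotProduct]
      exact ContDiffAt.sum fun s _ => ((hP l s).of_le (by
        exact_mod_cast le_top)).mul contDiffAt_const
    · have : Ξ m = fun _ => ξ m := by funext y; simp [Ξ, hm]
      rw [this]
      exact contDiffAt_const
  have hvert : ∀ m, m = i ∨ m = j → (θ.th a z)ᵀ *ᵥ ξ m = 0 := by
    intro m hm
    funext r
    have : ∀ x : Fin (q + 1), (∀ r, ∑ l, ξ x l * θ.th a z l r = 0) →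
        ((θ.th a z)ᵀ *ᵥ ξ x) r = 0 := by
      intro x hx
      simp only [Matrix.mulVec, dotProduct, Matrix.transpose_apply]
      rw [← hx r]
      exact Finset.sum_congr rfl fun l _ => mul_comm _ _
    rcases hm with rfl | rfl
    · exact this _ hi
    · exact this _ hj
  have hΞz : (fun m => Ξ m z) = ξ := by
    funext m
    by_cases hm : m = i ∨ m = j
    · simp only [Ξ, hm, if_true]
      exact hPz _ (hvert m hm)
    · simp [Ξ, hm]
  have key := SF_rel_frame (h.fseq D γ a) D.mol D.pos.le le_rfl hz Ξ hΞ ?_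
  · rw [hΞz] at key
    exact key
  filter_upwards [hP0] with y hy k
  have hv : ∀ m, m = i ∨ m = j → ∀ r, ∑ l, Ξ m y l * θ.th a y l r = 0 := by
    intro m hm r
    have e1 : Ξ m y = P y *ᵥ ξ m := by simp [Ξ, hm]
    have e2 : (θ.th a y)ᵀ *ᵥ Ξ m y = 0 := by
      rw [e1, Matrix.mulVec_mulVec, hy, Matrix.zero_mulVec]
    have e3 := congrFun e2 r
    simp only [Matrix.mulVec, dotProduct, Matrix.transpose_apply, Pi.zero_apply] at e3
    rw [← e3]
    exact Finset.sum_congr rfl fun l _ => mul_comm _ _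
  exact vtf_zero (ξ := fun m => Ξ m y) θ (u k) γ a y hij (hv i (Or.inl rfl)) (hv j (Or.inr rfl))

variable {Φ : ∀ k, Γ → C.I → Cm n → (Cm n [⋀^Fin p]→ₗ[ℂ] H k)}

/-- the limit on the pieces -/
theorem cform_limV (Dm : MD C) (h : VSeq C U π Φ) : CForm C Dm.Q (LimV Dm U Φ) where
  isOpen := Dm.Q_open
  W_sub := Dm.W_sub
  sub_Ω := fun a => (Dm.Q_sub a).trans (V_sub_Ω C a)
  an := fun γ a _ hz => LimV_analyticAt Dm h γ a hz
  change := fun γ a b _ hO hz hz' => LimV_change Dm h γ a b hO hz hz'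

/-! ### nonvanishing -/

lemma minor_cont (K : KM C) (a : C.I) (J J' : Fin p → Fin n) :
    ContinuousOn (fun z => ((K.w a z)⁻¹.submatrix J J').det) (C.Ω a) := by
  simp only [Matrix.det_apply']
  refine continuousOn_finsetSum _ fun σ _ => continuousOn_const.mul ?_
  exact continuousOn_finsetProd _ fun i _ => inv_entry_cont K a _ _

lemma VForm.cont {H : Type} [NormedAddCommGroup H] [InnerProductSpace ℂ H]
    {π : Γ →* (H ≃ₗᵢ[ℂ] H)} {Φ : Γ → C.I → Cm n → (Cm n [⋀^Fin p]→ₗ[ℂ] H)} (h : VForm C π Φ)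
    (γ : Γ) (a : C.I) (ξ : Fin p → Cm n) : ContinuousOn (fun z => Φ γ a z ξ) (C.Ω a) :=
  fun z hz => (h.smooth γ a ξ z hz).continuousAt.continuousWithinAt

lemma dnV_cont {H : Type} [NormedAddCommGroup H] [InnerProductSpace ℂ H]
    {π : Γ →* (H ≃ₗᵢ[ℂ] H)} {Φ : Γ → C.I → Cm n → (Cm n [⋀^Fin p]→ₗ[ℂ] H)} (h : VForm C π Φ)
    (K : KM C) (a : C.I) : ContinuousOn (dnV K Φ a) (C.Ω a) := by
  unfold dnV hN
  refine Complex.continuous_re.comp_continuousOn (continuousOn_const.mul ?_)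
  refine continuousOn_finsetSum _ fun J _ => continuousOn_finsetSum _ fun J' _ => ?_
  exact (minor_cont K a J J').mul ((h.cont 1 a _).inner (h.cont 1 a _))

/-- **nonvanishing** of the limit -/
theorem LimV_ne (D : MD C) {P : PU C} {K : KM C} (hPD : ∀ a, P.K a ⊆ D.Q a)
    (h : VSeq C U π Φ) (hone : ∀ k, BInt P K (dnV K (Φ k)) = 1) :
    ∃ a, ∃ z ∈ D.Q a, LimV D U Φ 1 a z ≠ 0 := by
  by_contra hcon
  push Not at hcon
  have hbd : ∀ a, ∃ B : ℝ, 0 ≤ B ∧ ∀ z ∈ D.Q a, P.χ a a z * (∑ J : Fin p → Fin n,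
      ∑ J' : Fin p → Fin n, ‖((K.w a z)⁻¹.submatrix J J').det‖) * vol (K.w a) z ≤ B := by
    intro a
    have hc : ContinuousOn (fun z => P.χ a a z * (∑ J : Fin p → Fin n,
        ∑ J' : Fin p → Fin n, ‖((K.w a z)⁻¹.submatrix J J').det‖) * vol (K.w a) z) (C.Ω a) :=
      ((chi_cont P a a).mul (continuousOn_finsetSum _ fun J _ => continuousOn_finsetSum _
        fun J' _ => (minor_cont K a J J').norm)).mul (vol_cont K a)
    obtain ⟨M, hM⟩ := (isCompact_closedBall (C.c a) (D.ρ a)).exists_bound_of_continuousOn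
      (hc.mono (Q_closed_sub D a))
    refine ⟨|M|, abs_nonneg _, fun z hz => ?_⟩
    exact (le_abs_self _).trans ((hM z (ball_subset_closedBall hz)).trans (le_abs_self _))
  choose B hB0 hB using hbd
  have hpiece : ∀ k a, ∫ z in C.V a, P.χ a a z * dnV K (Φ k) a z * vol (K.w a) z ≤
      B a * ∑ J : Fin p → Fin n, ∫ z in D.Q a, ‖Φ k 1 a z (eJ J)‖ ^ 2 := by
    intro k a
    have hsubΩ : D.Q a ⊆ C.Ω a := H15.FL.Q_sub_Ω D a
    have e1 : ∫ z in C.V a, P.χ a a z * dnV K (Φ k) a z * vol (K.w a) z =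
        ∫ z in D.Q a, P.χ a a z * dnV K (Φ k) a z * vol (K.w a) z := by
      refine setIntegral_eq_of_subset_of_forall_sdiff_eq_zero (t := C.V a) (s := D.Q a)
        measurableSet_ball (D.Q_sub a) fun z hz => ?_
      by_cases h3 : P.χ a a z = 0
      · rw [h3, zero_mul, zero_mul]
      · have h4 := P.supp a a z (V_sub_Ω C a hz.1) h3
        rw [C.T_self a z h4.1] at h4
        exact absurd (hPD a h4.2) hz.2
    have hi : ∀ {g : Cm n → ℝ}, ContinuousOn g (C.Ω a) → IntegrableOn g (D.Q a) := fun hg =>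
      ((hg.mono (Q_closed_sub D a)).integrableOn_compact (isCompact_closedBall _ _)).mono_set
        ball_subset_closedBall
    have i1 : ∀ J ∈ (Finset.univ : Finset (Fin p → Fin n)),
        IntegrableOn (fun z => ‖Φ k 1 a z (eJ J)‖ ^ 2) (D.Q a) := fun J _ =>
      hi (((h.form k).cont 1 a _).norm.pow 2)
    rw [e1, ← integral_finsetSum _ i1, ← integral_const_mul]
    refine setIntegral_mono_on ?_ ((integrable_finsetSum _ i1).const_mul _) measurableSet_ball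
      fun z hz => ?_
    · exact hi (((chi_cont P a a).mul (dnV_cont (h.form k) K a)).mul (vol_cont K a))
    · have h1 : dnV K (Φ k) a z ≤ (∑ J : Fin p → Fin n, ∑ J' : Fin p → Fin n,
          ‖((K.w a z)⁻¹.submatrix J J').det‖) * ∑ J, ‖Φ k 1 a z (eJ J)‖ ^ 2 := hN_le _ _
      have h2 : 0 ≤ P.χ a a z := P.nonneg a a z
      have h3 : 0 ≤ vol (K.w a) z := K.lam_pos.le.trans (K.vol_low a z (hsubΩ hz))
      calc P.χ a a z * dnV K (Φ k) a z * vol (K.w a) z
          ≤ P.χ a a z * ((∑ J : Fin p → Fin n, ∑ J' : Fin p → Fin n,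
            ‖((K.w a z)⁻¹.submatrix J J').det‖) * ∑ J, ‖Φ k 1 a z (eJ J)‖ ^ 2) *
              vol (K.w a) z := by gcongr
        _ = (P.χ a a z * (∑ J : Fin p → Fin n, ∑ J' : Fin p → Fin n,
            ‖((K.w a z)⁻¹.submatrix J J').det‖) * vol (K.w a) z) *
              ∑ J, ‖Φ k 1 a z (eJ J)‖ ^ 2 := by ring
        _ ≤ _ := mul_le_mul_of_nonneg_right (hB a z hz)
            (Finset.sum_nonneg fun _ _ => sq_nonneg _)
  have hlim : Tendsto (fun k => ∑ a, B a * ∑ J : Fin p → Fin n,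
      ∫ z in D.Q a, ‖Φ k 1 a z (eJ J)‖ ^ 2) U (𝓝 0) := by
    have h1 := tendsto_finsetSum (Finset.univ : Finset C.I) fun a _ =>
      (tendsto_finsetSum (Finset.univ : Finset (Fin p → Fin n)) fun J _ =>
        LimV_zero D h 1 a (fun z hz => hcon a z hz) (eJ J)).const_mul (B a)
    simpa using h1
  have hle : ∀ k, (1 : ℝ) ≤ ∑ a, B a * ∑ J : Fin p → Fin n,
      ∫ z in D.Q a, ‖Φ k 1 a z (eJ J)‖ ^ 2 := by
    intro k
    rw [← hone k, BInt]
    exact Finset.sum_le_sum fun a _ => hpiece k a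
  have := ge_of_tendsto' hlim hle
  linarith

/-! ### central elements -/

lemma LimV_cen_one (D : MD C) (h : VSeq C U π Φ) (γ : Γ) (a : C.I)
    (hcen : ∀ ξ, Tendsto (fun k => ∫ z in C.V a, ‖Φ k γ a z ξ - Φ k 1 a z ξ‖ ^ 2) U (𝓝 0))
    {z : Cm n} (hz : z ∈ D.Q a) : LimV D U Φ γ a z = LimV D U Φ 1 a z := by
  ext ξ
  rw [LimV_apply D h _ a hz, LimV_apply D h _ a hz]
  have h1 := ((h.fseq D γ a) ξ).appr D.mol D.pos.le le_rfl hz
  have h2 := ((h.fseq D 1 a) ξ).appr D.mol D.pos.le le_rfl hz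
  have h3 := h1.sub h2
  rw [slim, slim, mk_eq_iff h1.bdd h2.bdd]
  obtain ⟨r, hr, hrb⟩ := Metric.isOpen_iff.1 (D.Q_open a) z hz
  have hsub : ball z r ⊆ C.V a := hrb.trans (D.Q_sub a)
  have hint : ∀ k, IntegrableOn (fun z => ‖Φ k γ a z ξ - Φ k 1 a z ξ‖ ^ 2) (C.V a) := by
    intro k
    refine intOn ?_
    intro z hz
    have h1 := ((h.form k).smooth γ a ξ z (cb_sub_Ω C a hz)).continuousAt
    have h2 := ((h.form k).smooth 1 a ξ z (cb_sub_Ω C a hz)).continuousAt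
    exact (((h1.sub h2).norm).pow 2).continuousWithinAt
  refine H402.B.appr_zero h3 hr (fun k => (hint k).mono_set hsub) ?_
  refine squeeze_zero (fun k => integral_nonneg fun z => sq_nonneg _) (fun k => ?_) (hcen ξ)
  exact setIntegral_mono_set (hint k) (Eventually.of_forall fun z => sq_nonneg _) hsub.eventuallyLE

/-- invariance of the limit under the central elements -/
theorem LimV_cen (D : MD C) (h : VSeq C U π Φ) {ζ : Γ} (hζ : ∀ g, ζ * g = g * ζ)
    (hcen : ∀ a ξ, Tendsto (fun k => ∫ z in C.V a, ‖Φ k ζ a z ξ - Φ k 1 a z ξ‖ ^ 2) U (𝓝 0))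
    (γ : Γ) (a : C.I) {z : Cm n} (hz : z ∈ D.Q a) :
    LimV D U Φ (ζ * γ) a z = LimV D U Φ γ a z := by
  ext ξ
  have h1 := LimV_equiv D h γ ζ a hz ξ
  have h2 := LimV_equiv D h γ 1 a hz ξ
  rw [mul_one] at h2
  rw [hζ γ, h1, h2, LimV_cen_one D h ζ a (hcen a) hz]

end

section
variable {n m q : ℕ} {Γ X E : Type} [Group Γ] [TopologicalSpace X] [ChartedSpace (Cm n) X]
    [TopologicalSpace E] [MulAction Γ E] {p : E → X} {C : Coc n Γ} {H : ℕ → Type}
  [∀ k, NormedAddCommGroup (H k)] [∀ k, InnerProductSpace ℂ (H k)] [∀ k, CompleteSpace (H k)]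
  {U : Ultrafilter ℕ} {π : ∀ k, Γ →* (H k ≃ₗᵢ[ℂ] H k)}
  {Φ : ∀ k, Γ → C.I → Cm n → (Cm n [⋀^Fin m]→ₗ[ℂ] H k)}

/-- **the limit form on the covering space** -/
theorem limEV [IsManifold 𝓘(ℂ, Cm n) ω X] (hG : IsGalois Γ p) (D : ECoc p C) (Dm : MD C)
    (h : VSeq C U π Φ) (hcl : ∀ k, VClosed C (Φ k))
    (hne : ∃ γ a, ∃ z ∈ Dm.Q a, LimV Dm U Φ γ a z ≠ 0) :
    FormE p (SE hG D (LimV Dm U Φ)) ∧
    (∀ y e (f : Cm n → Cm n [⋀^Fin m]→L[ℂ] UP H U), At e (p y) → AnalyticAt ℂ f (e (p y)) →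
      (∀ᶠ y' in 𝓝 y, SE hG D (LimV Dm U Φ) y' e = f (e (p y'))) →
      ∀ᶠ z in 𝓝 (e (p y)), extDeriv f z = 0) ∧
    (∀ (g : Γ) (y : E) (e : Chart n X), At e (p y) → ∀ ξ,
      SE hG D (LimV Dm U Φ) (g • y) e ξ = upRep U π g (SE hG D (LimV Dm U Φ) y e ξ)) ∧
    (∃ y e ξ, At e (p y) ∧ SE hG D (LimV Dm U Φ) y e ξ ≠ 0) :=
  ⟨SE_form hG D (cform_limV Dm h),
    fun y _ f he _ hf => SE_closed hG D (cform_limV Dm h)
      (fun γ a _ hz => LimV_closed Dm h hcl γ a hz) y _ f he hf,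
    fun g y e he ξ => SE_equiv hG D (cform_limV Dm h) (π := fun g => upRep U π g)
      (fun g γ a _ hz ξ => LimV_equiv Dm h g γ a hz ξ) g y he ξ,
    SE_ne hG D (cform_limV Dm h) hne⟩

end

end Vale.Agent.P284.H366
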