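import Vale.Agent.P284.H366.V.VM
import Vale.Agent.P284.H366.LimE
import Vale.Agent.P284.H338.IndQ
import Vale.Agent.P284.H553.PV.Loc

/-!
# The limit for Hilbert valued sections, all `q` (T3): statements

`LimAtT q` is `LimAt q` with `Folner Γ` replaced by: `K` does not have property (T).
-/

open scoped Manifold ContDiff Topology InnerProductSpace ComplexConjugate ENNReal Matrix
open Filter Set MeasureTheory Metric

noncomputable section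

set_option linter.unusedSectionVars false

namespace Vale.Agent.P284.H366

open Vale.Agent.P272.K Vale.Agent.P284.H894 Vale.Agent.P284.H894.G Vale.Agent.P284.H894.V
  Vale.Agent.P284.H894.W Vale.Agent.P284.H501 Vale.Agent.P284.H501.Core Vale.Agent.P284.H619
  Vale.Agent.P284.H402.A Vale.Agent.P284.H402.B Vale.Agent.P284.H551 Vale.Agent.P284.H494
  Vale.Agent.P284.H213.Grp Vale.Agent.P284.H913.V Vale.Agent.P284.H119.Kaz

section
variable {n p q : ℕ} {Γ : Type} [Group Γ] {C : Coc n Γ}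

/-- the density of a form: its norm with respect to the metric -/
def dnV (K : KM C) {H : Type} [NormedAddCommGroup H] [InnerProductSpace ℂ H]
    (Φ : Γ → C.I → Cm n → (Cm n [⋀^Fin p]→ₗ[ℂ] H)) (a : C.I) (z : Cm n) : ℝ :=
  hN (K.w a z)⁻¹ fun J => Φ 1 a z (eJ J)

/-- asymptotically flat energy: the push-forwards of the densities are asymptotically invariant under
translations -/
def FlatV (P : PU C) (K : KM C) (F : Γ → C.I → Cm n → Cm q) (c : Γ → Cm q) (U : Filter ℕ)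
    {H : ℕ → Type} [∀ k, NormedAddCommGroup (H k)] [∀ k, InnerProductSpace ℂ (H k)]
    (Φ : ∀ k, Γ → C.I → Cm n → (Cm n [⋀^Fin p]→ₗ[ℂ] H k)) : Prop :=
  ∀ φ : Cm q → ℝ, ContDiff ℝ ∞ φ → (∀ g t, φ (t + c g) = φ t) → ∀ v : Cm q,
    Tendsto (fun k => BInt P K fun a z => fderiv ℝ φ (F 1 a z) v * dnV K (Φ k) a z) U (𝓝 0)

/-- **the output of (A'')** for sections with values in real Hilbert spaces -/
structure AOutV (P : PU C) (K : KM C) (θ : HF C q) (F : Γ → C.I → Cm n → Cm q) (c : Γ → Cm q)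
    {ι : Type} (ζ : ι → Γ) (U : Ultrafilter ℕ) {W : ℕ → Type} [∀ k, NormedAddCommGroup (W k)]
    [∀ k, InnerProductSpace ℝ (W k)] (π : ∀ k, Γ →* (W k ≃ₗᵢ[ℝ] W k))
    (u : ∀ k, Γ → C.I → Cm n → W k) : Prop where
  sec : ∀ k, H287.T.Sec C (π k) 0 (u k)
  seq : VSeq C U (fun k => CW.rep (π k)) fun k => vtf θ fun γ a z => CW.inc (W k) (u k γ a z)
  one : ∀ k, BInt P K (dnV K (vtf θ fun γ a z => CW.inc (W k) (u k γ a z))) = 1
  flat : FlatV P K F c U fun k => vtf θ fun γ a z => CW.inc (W k) (u k γ a z)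
  cen : ∀ i a ξ, Tendsto (fun k => ∫ z in C.V a, ‖vtf θ (fun γ a z => CW.inc (W k) (u k γ a z)) (ζ i) a z ξ -
    vtf θ (fun γ a z => CW.inc (W k) (u k γ a z)) 1 a z ξ‖ ^ 2) U (𝓝 0)

end

/-- **(A'')** for Hilbert valued sections (helper402) -/
def AOutVStmt : Prop :=
  ∀ (n : ℕ) (X : Type) [TopologicalSpace X] [T2Space X] [CompactSpace X] [ConnectedSpace X]
    [ChartedSpace (Cm n) X] [IsManifold 𝓘(ℂ, Cm n) ω X]
    (w : Chart n X → Cm n → Matrix (Fin n) (Fin n) ℂ), IsKahler w →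
    ∀ (E Γ : Type) [TopologicalSpace E] [ConnectedSpace E] [Group Γ] [MulAction Γ E]
      (p : E → X) (hG : IsGalois Γ p) (C : Coc n Γ) (D : ECoc p C) (K : KM C)
      (_ : ∀ a, K.w a = w (D.e a)) (P : PU C) (q : ℕ) (_ : 1 ≤ q) (F : E → Cm q) (c : Γ → Cm q)
      (B : ℝ) (hF : HolB p w F B) (hc : Eqv F c) (hreg : ∃ y, Reg (n := n) p F y),
      GenConn (n := n) p F → LatChar Γ q c → ∀ N : Subgroup Γ, N.Normal → (∀ g ∈ N, c g = 0) →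
      (∃ A : Set Γ, A.Finite ∧ ∀ g, c g = 0 → ∃ f ∈ A, f⁻¹ * g ∈ N) → ¬ Kazhdan N →
      ∀ (ι : Type) [Fintype ι] (ζ : ι → Γ), (∀ i g, ζ i * g = g * ζ i) →
      ∀ U : Ultrafilter ℕ, (U : Filter ℕ) ≤ atTop →
    ∃ (W : ℕ → Type) (_ : ∀ k, NormedAddCommGroup (W k)) (_ : ∀ k, InnerProductSpace ℝ (W k))
      (_ : ∀ k, CompleteSpace (W k)) (π : ∀ k, Γ →* (W k ≃ₗᵢ[ℝ] W k))
      (u : ∀ k, Γ → C.I → Cm n → W k),
      AOutV P K (hfF hG D K ‹_› hF hc hreg) (Fc D F) c ζ U π u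

/-- **push-forward** of the limit (helper15) -/
def PushVStmt : Prop := ∀ (n q p : ℕ) (Γ : Type) [Group Γ] (C : Coc n Γ) (P : PU C) (K : KM C)
  (F : Γ → C.I → Cm n → Cm q) (c : Γ → Cm q), H650.HolF C F →
  (∀ g γ a, ∀ z ∈ C.Ω a, F (g * γ) a z = F γ a z + c g) →
  (∀ R : ℝ, {v : Cm q | (∃ g, c g = v) ∧ ‖v‖ ≤ R}.Finite) →
  (∃ R : ℝ, ∀ t : Cm q, ∃ g, ‖t - c g‖ ≤ R) →
  ∀ (H : ℕ → Type) [∀ k, NormedAddCommGroup (H k)] [∀ k, InnerProductSpace ℂ (H k)]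
    [∀ k, CompleteSpace (H k)] (U : Ultrafilter ℕ) (π : ∀ k, Γ →* (H k ≃ₗᵢ[ℂ] H k))
    (Φ : ∀ k, Γ → C.I → Cm n → (Cm n [⋀^Fin p]→ₗ[ℂ] H k)), VSeq C U π Φ →
  FlatV P K F c U Φ → ∀ D : MD C, (∀ a, P.K a ⊆ D.Q a) →
  ∃ A : ℝ≥0∞, A ≠ ⊤ ∧ ∀ (γ : Γ) (a : C.I) (s : Cm q → ℝ≥0∞), Measurable s →
    ∫⁻ z in D.Q a, s (F γ a z) * ‖LimV D U Φ γ a z‖ₑ ^ 2 ≤ A * ∫⁻ y, s y

/-- **potentials** of the limit of real maps (helper619, helper553, helper501) -/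
def PotVStmt : Prop :=
  ∀ (n : ℕ) (X : Type) [TopologicalSpace X] [T2Space X] [CompactSpace X] [ConnectedSpace X]
    [ChartedSpace (Cm n) X] [IsManifold 𝓘(ℂ, Cm n) ω X]
    (w : Chart n X → Cm n → Matrix (Fin n) (Fin n) ℂ), IsKahler w →
    ∀ (E Γ : Type) [TopologicalSpace E] [ConnectedSpace E] [Group Γ] [MulAction Γ E]
      (p : E → X) (hG : IsGalois Γ p) (C : Coc n Γ) (D : ECoc p C) (K : KM C)
      (hKw : ∀ a, K.w a = w (D.e a)) (q : ℕ) (F : E → Cm q) (c : Γ → Cm q) (B : ℝ)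
      (hF : HolB p w F B) (hc : Eqv F c) (hreg : ∃ y, Reg (n := n) p F y)
      (H : ℕ → Type) [∀ k, NormedAddCommGroup (H k)] [∀ k, InnerProductSpace ℂ (H k)]
      [∀ k, CompleteSpace (H k)] (U : Ultrafilter ℕ) (π : ∀ k, Γ →* (H k ≃ₗᵢ[ℂ] H k))
      (cj : ∀ k, H k →SL[starRingEnd ℂ] H k), H553.PV.Cjs cj →
      (∀ k x y, ⟪x, cj k y⟫_ℂ = conj ⟪cj k x, y⟫_ℂ) →
      (∀ k g x, cj k (π k g x) = π k g (cj k x)) →
      ∀ (u : ∀ k, Γ → C.I → Cm n → H k), (∀ k, VMap C (π k) (u k)) →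
      (∀ k γ a z, cj k (u k γ a z) = u k γ a z) →
      VSeq C U π (fun k => vtf (hfF hG D K hKw hF hc hreg) (u k)) → ∀ (Dm : MD C) (t : Cm q),
      IsConnected (F ⁻¹' {t}) → (∀ y, F y = t → Reg (n := n) p F y) →
      ∃ v : E → UP H U,
        (∀ y e, F y = t → At e (p y) → ∀ x : UP H U, ∃ g h : Cm n → ℂ,
          AnalyticAt ℂ g (e (p y)) ∧ AnalyticAt ℂ h (e (p y)) ∧ ∀ᶠ y' in 𝓝 y, F y' = t →
            ⟪x, v y'⟫_ℂ = g (e (p y')) + conj (h (e (p y'))) ∧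
            ∀ ξ ∈ VS p F y' e, fderiv ℂ g (e (p y')) ξ = ⟪x, ThE p F (SE hG D (LimV Dm U
              fun k => vtf (hfF hG D K hKw hF hc hreg) (u k))) y' e ξ⟫_ℂ) ∧
        ∀ k : Γ, c k = 0 → ∃ b : UP H U, ∀ y, F y = t → v (k • y) = upRep U π k (v y) + b

/-- **the limit** if `K` does not have property (T) -/
def LimAtT (q : ℕ) : Prop :=
  ∀ (n : ℕ) (X : Type) [TopologicalSpace X] [T2Space X] [CompactSpace X] [ConnectedSpace X]
    [ChartedSpace (Cm n) X] [IsManifold 𝓘(ℂ, Cm n) ω X]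
    (w : Chart n X → Cm n → Matrix (Fin n) (Fin n) ℂ), IsKahler w →
    ∀ (E Γ : Type) [TopologicalSpace E] [ConnectedSpace E] [Group Γ] [MulAction Γ E]
      (p : E → X), IsGalois Γ p →
    ∀ (F : E → Cm q) (c : Γ → Cm q) (K : Subgroup Γ), (∃ B, HolB p w F B) →
      (∀ g y, F (g • y) = F y + c g) → (∃ y, Reg (n := n) p F y) → GenConn (n := n) p F →
      LatChar Γ q c → K.Normal → (∀ g ∈ K, c g = 0) →
      (∃ A : Set Γ, A.Finite ∧ ∀ g, c g = 0 → ∃ f ∈ A, f⁻¹ * g ∈ K) → ¬ Kazhdan K →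
    ∀ (ι : Type) [Fintype ι] (ζ : ι → Γ), (∀ i g, ζ i * g = g * ζ i) →
    ∃ (W : Type) (_ : NormedAddCommGroup W) (_ : InnerProductSpace ℂ W) (_ : CompleteSpace W)
      (π : Γ →* (W ≃ₗᵢ[ℂ] W)) (S : E → Chart n X → Cm n [⋀^Fin (q + 1)]→L[ℂ] W)
      (Θ : E → Chart n X → (Cm n →L[ℂ] W)) (M₀ : Set (Cm q)),
      SRel p F π S Θ ∧ (∀ i, π (ζ i) = 1) ∧
      (∀ x : W, (∀ y e, At e (p y) → ∀ ξ, ⟪x, S y e ξ⟫_ℂ = 0) → x = 0) ∧ IsMeagre M₀ ∧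
      ∀ t ∉ M₀, ∃ u : E → W, VPot p F t W Θ u ∧
        ∀ L : Subgroup Γ, (∀ g ∈ L, c g = 0) → VEqui p F t L π Θ u

end Vale.Agent.P284.H366
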