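import Vale.Agent.P284.H366.V.Rel

/-!
# Assembly of the limit for Hilbert valued sections: `LimAtT`
-/

open scoped Manifold ContDiff Topology InnerProductSpace ComplexConjugate ENNReal Matrix
open Filter Set MeasureTheory

noncomputable section

set_option linter.unusedSectionVars false

namespace Vale.Agent.P284.H366

open Vale.Agent.P272.K Vale.Agent.P284.H894 Vale.Agent.P284.H894.G Vale.Agent.P284.H894.V
  Vale.Agent.P284.H894.W Vale.Agent.P284.H501 Vale.Agent.P284.H501.Core Vale.Agent.P284.H619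
  Vale.Agent.P284.H402.A Vale.Agent.P284.H402.B Vale.Agent.P284.H551 Vale.Agent.P284.H494
  Vale.Agent.P284.H213.Grp Vale.Agent.P284.H913.V Vale.Agent.P284.H119.Kaz

theorem cjs_CW {W : ℕ → Type} [∀ k, NormedAddCommGroup (W k)] [∀ k, InnerProductSpace ℝ (W k)] :
    H553.PV.Cjs (fun k => CW.cj (W k)) := ⟨fun _ u => CW.norm_cj u⟩

/-- **The assembly.** -/
theorem limAtT_of {q : ℕ} (hq : 1 ≤ q) (h402 : AOutVStmt) (h15 : PushVStmt) (h619 : PotVStmt) :
    LimAtT q := by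
  intro n X _ _ _ _ _ _ w hw E Γ _ _ _ _ p hG F c N hBB hc hreg hconn hlat hnorm hsub hfi hkaz
    ι _ ζ hζ
  obtain ⟨B, hB⟩ := hBB
  obtain ⟨C, D, KK, ⟨P⟩, hKw⟩ := exists_eCoc hw hG
  set θ := hfF hG D KK hKw hB hc hreg with hθ
  set U : Ultrafilter ℕ := hyperfilter ℕ with hUd
  have hU : (U : Filter ℕ) ≤ atTop := Nat.hyperfilter_le_atTop
  obtain ⟨Dm, hDm⟩ := exists_MD C P.K P.compactK P.K_sub
  obtain ⟨V, i1, i2, i3, ρ, v, hA⟩ := h402 n X w hw E Γ p hG C D KK hKw P q hq F c B hB hc hreg hconn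
    hlat N hnorm hsub hfi hkaz ι ζ hζ U hU
  set u : ∀ k, Γ → C.I → Cm n → CW (V k) := fun k γ a z => CW.inc (V k) (v k γ a z) with hu
  have hvm : ∀ k, VMap C (CW.rep (ρ k)) (u k) := fun k => vmap_of_sec (hA.sec k)
  have hseq : VSeq C U (fun k => CW.rep (ρ k)) fun k => vtf θ (u k) := hA.seq
  set s := LimV Dm U (fun k => vtf θ (u k)) with hs
  set πU : Γ →* (UP (fun k => CW (V k)) U ≃ₗᵢ[ℂ] UP (fun k => CW (V k)) U) :=
    upRep U fun k => CW.rep (ρ k) with hπU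
  have hcf : CForm C Dm.Q s := cform_limV Dm hseq
  have hHolE : HolE n p F := fun y e he => by
    obtain ⟨f, hf⟩ := rep_of_holB hG D hB y e he
    exact ⟨f, hf.2, hf.1⟩
  have hne : ∃ γ a, ∃ z ∈ Dm.Q a, s γ a z ≠ 0 := by
    obtain ⟨a, z, hz, h⟩ := LimV_ne Dm hDm hseq hA.one
    exact ⟨1, a, z, hz, h⟩
  have hHol : H650.HolF C (Fc D F) :=
    ⟨fun γ a z hz => (Fc_hol hG D hB γ hz).1.differentiableWithinAt, (tMap hG D hB).compat⟩
  obtain ⟨Ac, hAc, hpush⟩ := h15 n q (q + 1) Γ C P KK (Fc D F) c hHol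
    (fun g γ a z _ => by rw [Fc, Fc, mul_smul, hc]) hlat.disc (lat_co hlat) _ U _ _ hseq hA.flat
    Dm hDm
  set S := SE hG D s with hS
  have hrel : ∀ γ a, ∀ z ∈ Dm.Q a, Function.Surjective (fderiv ℂ (Fc D F γ a) z) →
      ∀ (ξ : Fin (q + 1) → Cm n) (i j : Fin (q + 1)), i ≠ j →
        fderiv ℂ (Fc D F γ a) z (ξ i) = 0 → fderiv ℂ (Fc D F γ a) z (ξ j) = 0 →
        s γ a z ξ = 0 := by
    intro γ a z hz hsur ξ i j hij hi hj
    exact LimV_rel Dm θ hseq γ a hz (inj_of_surj (thF_apply D hc γ a z) hsur) hij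
      ((vert_iff hc γ a z (ξ i)).1 hi) ((vert_iff hc γ a z (ξ j)).1 hj)
  have hRel : RelS p F S := relS_of hG D hcf hB hrel ⟨Ac, hAc, hpush⟩
  obtain ⟨-, hcl, heq, y₀, e₀, ξ₀, he₀, hne₀⟩ :=
    limEV hG D Dm hseq (fun k => vtf_closed θ (hvm k)) hne
  have hRE : RelE p F S := relE_of hG.cov hHolE hRel.rel
  have hpg : ∀ (g : Γ) y, p (g • y) = p y := fun g y => ECoc.p_smul hG g y
  obtain ⟨W₀, i1', i2', i3', Pr, J, π₀, hR⟩ := H275.exists_res hpg πU S heq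
  have hTh : H275.mapT Pr (ThE p F S) = ThE p F (H275.mapF Pr S) := by
    funext y e
    ext v
    rw [H275.mapT_apply, ThE, ThE, sl_apply, sl_apply, H275.mapF_apply]
  obtain ⟨T, hT, hTi, hTc⟩ := hconn
  refine ⟨W₀, i1', i2', i3', π₀, H275.mapF Pr S, H275.mapT Pr (ThE p F S), T,
    ⟨H275.relS_map hG.cov Pr hRel, ?_, H275.equi_map hR heq, ?_, ?_⟩, ?_, ?_, ?_, ?_⟩
  · exact fun y e s' he hs' hev => H275.closed_map hG.cov Pr hRel.form hcl y e s' he hev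
  · refine ⟨y₀, e₀, he₀, ξ₀, fun h0 => hne₀ ?_⟩
    exact (H275.map_ne hR he₀).1 h0
  · rw [hTh]
    exact ThE_isTh hG.cov
  · intro i
    refine hR.triv_of heq fun y e he ξ => ?_
    exact SE_inv hG D hcf (fun γ a z hz => LimV_cen Dm hseq (hζ i) (hA.cen i) γ a hz) y he ξ
  · intro x hx
    refine hR.dense x ?_
    rintro _ ⟨y, e, ξ, he, rfl⟩
    exact hx y e he ξ
  · exact (hT.isNowhereDense_iff.2 hTi).isMeagre
  · intro t ht
    obtain ⟨hcon, hregt⟩ := hTc t ht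
    obtain ⟨v', hv1, hv2⟩ := h619 n X w hw E Γ p hG C D KK hKw q F c B hB hc hreg _ U
      (fun k => CW.rep (ρ k)) (fun k => CW.cj (V k)) cjs_CW (fun k x y => CW.inner_cj x y)
      (fun k g x => CW.cj_rep (ρ k) g x) u hvm (fun k γ a z => CW.cj_inc _) hseq Dm t hcon hregt
    refine ⟨fun y => Pr (v' y), H275.vpot_map hR ⟨?_, ?_, hv1⟩, fun L hL =>
      H275.vequi_map hR ⟨?_, ?_⟩⟩
    · intro y e hy he
      obtain ⟨A', h1, h2⟩ := ThE_hol hG.cov hHolE hRE hRel.form he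
        (reg_dFe hG.cov hHolE he (hregt y hy))
      exact ⟨A', h1, h2.mono fun y' h3 _ => h3⟩
    · intro y e e' hy he he' ξ hξ
      exact ThE_change hG.cov hHolE hRE hRel.form he he' (hregt y hy) hξ
    · intro k hk y e hy he ξ hξ
      exact ThE_equi hG hHolE hc heq k he ξ
    · intro k hk
      exact hv2 k (hL k hk)

end Vale.Agent.P284.H366
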