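import Mathlib.Analysis.InnerProductSpace.ProdL2
import Mathlib.Analysis.InnerProductSpace.LinearMap
import Mathlib.Analysis.CStarAlgebra.Basic
import Mathlib.Analysis.Complex.Basic

/-!
# The complexification of a real Hilbert space
-/

open scoped InnerProductSpace ComplexConjugate Topology
open Complex

noncomputable section

namespace Vale.Agent.P284.H366

/-- the complexification of a real Hilbert space -/
structure CW (W : Type) where
  /-- real part -/
  x : W
  /-- imaginary part -/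
  y : W

namespace CW

section
variable {W : Type}

@[ext] lemma ext' {u v : CW W} (h1 : u.x = v.x) (h2 : u.y = v.y) : u = v := by
  cases u; cases v; simp_all

/-- the underlying pair -/
def toP (u : CW W) : WithLp 2 (W × W) := WithLp.toLp 2 (u.x, u.y)

lemma toP_inj : Function.Injective (toP : CW W → WithLp 2 (W × W)) := by
  intro u v h
  have h1 := congrArg WithLp.ofLp h
  have h2 : (u.x, u.y) = (v.x, v.y) := h1
  exact ext' (congrArg Prod.fst h2) (congrArg Prod.snd h2)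

end

section
variable {W : Type} [NormedAddCommGroup W]

instance : Zero (CW W) := ⟨⟨0, 0⟩⟩
instance : Add (CW W) := ⟨fun u v => ⟨u.x + v.x, u.y + v.y⟩⟩
instance : Neg (CW W) := ⟨fun u => ⟨-u.x, -u.y⟩⟩
instance : Sub (CW W) := ⟨fun u v => ⟨u.x - v.x, u.y - v.y⟩⟩
instance : SMul ℕ (CW W) := ⟨fun k u => ⟨k • u.x, k • u.y⟩⟩
instance : SMul ℤ (CW W) := ⟨fun k u => ⟨k • u.x, k • u.y⟩⟩

@[simp] lemma x_zero : (0 : CW W).x = 0 := rfl
@[simp] lemma y_zero : (0 : CW W).y = 0 := rfl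
@[simp] lemma x_add (u v : CW W) : (u + v).x = u.x + v.x := rfl
@[simp] lemma y_add (u v : CW W) : (u + v).y = u.y + v.y := rfl
@[simp] lemma x_neg (u : CW W) : (-u).x = -u.x := rfl
@[simp] lemma y_neg (u : CW W) : (-u).y = -u.y := rfl
@[simp] lemma x_sub (u v : CW W) : (u - v).x = u.x - v.x := rfl
@[simp] lemma y_sub (u v : CW W) : (u - v).y = u.y - v.y := rfl

instance : AddCommGroup (CW W) :=
  toP_inj.addCommGroup toP rfl (fun _ _ => rfl) (fun _ => rfl) (fun _ _ => rfl) (fun _ _ => rfl)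
    (fun _ _ => rfl)

/-- the underlying pair, additive -/
def toPh : CW W →+ WithLp 2 (W × W) where
  toFun := toP
  map_zero' := rfl
  map_add' _ _ := rfl

instance : NormedAddCommGroup (CW W) := NormedAddCommGroup.induced (CW W) _ toPh toP_inj

lemma norm_sq (u : CW W) : ‖u‖ ^ 2 = ‖u.x‖ ^ 2 + ‖u.y‖ ^ 2 := by
  have h : ‖u‖ = ‖toP u‖ := rfl
  rw [h, WithLp.prod_norm_sq_eq_of_L2]
  rfl

end

section
variable {W : Type} [NormedAddCommGroup W] [InnerProductSpace ℝ W]

instance : SMul ℂ (CW W) := ⟨fun c u => ⟨c.re • u.x - c.im • u.y, c.re • u.y + c.im • u.x⟩⟩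

@[simp] lemma x_smul (c : ℂ) (u : CW W) : (c • u).x = c.re • u.x - c.im • u.y := rfl
@[simp] lemma y_smul (c : ℂ) (u : CW W) : (c • u).y = c.re • u.y + c.im • u.x := rfl

instance : Module ℂ (CW W) where
  one_smul u := by ext <;> simp
  mul_smul c d u := by
    ext
    · simp only [x_smul, y_smul, mul_re, mul_im]
      module
    · simp only [x_smul, y_smul, mul_re, mul_im]
      module
  smul_zero c := by ext <;> simp
  smul_add c u v := by
    ext
    · simp only [x_smul, x_add, y_add]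
      module
    · simp only [y_smul, x_add, y_add]
      module
  add_smul c d u := by
    ext
    · simp only [x_smul, x_add, add_re, add_im]
      module
    · simp only [y_smul, y_add, add_re, add_im]
      module
  zero_smul u := by ext <;> simp

instance : Inner ℂ (CW W) :=
  ⟨fun u v => ⟨⟪u.x, v.x⟫_ℝ + ⟪u.y, v.y⟫_ℝ, ⟪u.x, v.y⟫_ℝ - ⟪u.y, v.x⟫_ℝ⟩⟩

lemma inner_def (u v : CW W) : ⟪u, v⟫_ℂ =
    ⟨⟪u.x, v.x⟫_ℝ + ⟪u.y, v.y⟫_ℝ, ⟪u.x, v.y⟫_ℝ - ⟪u.y, v.x⟫_ℝ⟩ := rfl

lemma norm_smul_sq (c : ℂ) (u : CW W) : ‖c • u‖ ^ 2 = (‖c‖ * ‖u‖) ^ 2 := by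
  rw [mul_pow, norm_sq, norm_sq, x_smul, y_smul, ← Complex.normSq_eq_norm_sq, Complex.normSq_apply]
  have e1 : ‖c.re • u.x - c.im • u.y‖ ^ 2 = c.re ^ 2 * ‖u.x‖ ^ 2 -
      2 * (c.re * c.im * ⟪u.x, u.y⟫_ℝ) + c.im ^ 2 * ‖u.y‖ ^ 2 := by
    rw [norm_sub_sq_real, norm_smul, norm_smul, inner_smul_left, inner_smul_right, mul_pow, mul_pow,
      Real.norm_eq_abs, Real.norm_eq_abs, sq_abs, sq_abs]
    simp only [conj_trivial]
    ring
  have e2 : ‖c.re • u.y + c.im • u.x‖ ^ 2 = c.re ^ 2 * ‖u.y‖ ^ 2 +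
      2 * (c.re * c.im * ⟪u.x, u.y⟫_ℝ) + c.im ^ 2 * ‖u.x‖ ^ 2 := by
    rw [norm_add_sq_real, norm_smul, norm_smul, inner_smul_left, inner_smul_right, mul_pow, mul_pow,
      Real.norm_eq_abs, Real.norm_eq_abs, sq_abs, sq_abs, real_inner_comm u.x u.y]
    simp only [conj_trivial]
    ring
  rw [e1, e2]
  ring

instance : NormedSpace ℂ (CW W) where
  norm_smul_le c u := by
    have h := norm_smul_sq c u
    exact le_of_eq ((sq_eq_sq₀ (norm_nonneg _) (by positivity)).1 h)

instance : InnerProductSpace ℂ (CW W) where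
  norm_sq_eq_re_inner u := by
    rw [norm_sq, inner_def]
    simp
  conj_inner_symm u v := by
    rw [inner_def, inner_def]
    apply Complex.ext
    · simp [real_inner_comm]
    · simp [real_inner_comm]
  add_left u v w := by
    rw [inner_def, inner_def, inner_def]
    apply Complex.ext
    · simp [inner_add_left]; ring
    · simp [inner_add_left]; ring
  smul_left u v c := by
    rw [inner_def, inner_def]
    apply Complex.ext
    · simp [inner_add_left, inner_sub_left, inner_smul_left]; ring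
    · simp [inner_add_left, inner_sub_left, inner_smul_left]; ring

instance [CompleteSpace W] : CompleteSpace (CW W) := by
  have hs : Function.Surjective (toPh : CW W →+ WithLp 2 (W × W)) := fun v =>
    ⟨⟨(WithLp.ofLp v).1, (WithLp.ofLp v).2⟩, rfl⟩
  have hi : Isometry (toPh : CW W → WithLp 2 (W × W)) :=
    AddMonoidHomClass.isometry_of_norm _ fun _ => rfl
  exact (IsometryEquiv.mk (Equiv.ofBijective _ ⟨toP_inj, hs⟩) hi).completeSpace

/-- the inclusion -/
def inc (W : Type) [NormedAddCommGroup W] [InnerProductSpace ℝ W] : W →ₗᵢ[ℝ] CW W where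
  toFun w := ⟨w, 0⟩
  map_add' u v := by ext <;> simp
  map_smul' r u := by
    ext
    · show r • u = (r : ℂ).re • u - (r : ℂ).im • (0 : W)
      simp
    · show (0 : W) = (r : ℂ).re • (0 : W) + (r : ℂ).im • u
      simp
  norm_map' u := by
    have h := norm_sq (⟨u, 0⟩ : CW W)
    simp only [norm_zero] at h
    refine (sq_eq_sq₀ (norm_nonneg _) (norm_nonneg _)).1 ?_
    rw [← add_zero (‖u‖ ^ 2)]
    simpa using h

lemma inc_apply (w : W) : inc W w = ⟨w, 0⟩ := rfl

lemma inner_inc (u v : W) : ⟪inc W u, inc W v⟫_ℂ = (⟪u, v⟫_ℝ : ℂ) := by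
  rw [inner_def]
  apply Complex.ext <;> simp [inc_apply]

/-- the conjugation -/
def cj (W : Type) [NormedAddCommGroup W] [InnerProductSpace ℝ W] : CW W →SL[starRingEnd ℂ] CW W :=
  LinearMap.mkContinuous
    { toFun := fun u => ⟨u.x, -u.y⟩
      map_add' := fun u v => by
        ext
        · rfl
        · simp; abel
      map_smul' := fun c u => by
        ext
        · simp
        · simp; abel } 1 fun u => by
      rw [one_mul]
      refine le_of_eq ((sq_eq_sq₀ (norm_nonneg _) (norm_nonneg _)).1 ?_)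
      rw [norm_sq, norm_sq]
      simp

lemma cj_apply (u : CW W) : cj W u = ⟨u.x, -u.y⟩ := rfl

lemma cj_inc (w : W) : cj W (inc W w) = inc W w := by
  rw [cj_apply, inc_apply]
  simp

lemma norm_cj (u : CW W) : ‖cj W u‖ = ‖u‖ := by
  refine (sq_eq_sq₀ (norm_nonneg _) (norm_nonneg _)).1 ?_
  rw [norm_sq, norm_sq, cj_apply]
  simp

lemma inner_cj (u v : CW W) : ⟪u, cj W v⟫_ℂ = conj ⟪cj W u, v⟫_ℂ := by
  rw [inner_def, inner_def, cj_apply, cj_apply]
  apply Complex.ext
  · simp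
  · simp; ring

/-- extension of an orthogonal map -/
def mp (A : W ≃ₗᵢ[ℝ] W) : CW W ≃ₗᵢ[ℂ] CW W where
  toFun u := ⟨A u.x, A u.y⟩
  invFun u := ⟨A.symm u.x, A.symm u.y⟩
  map_add' u v := by ext <;> simp
  map_smul' c u := by ext <;> simp
  left_inv u := by ext <;> simp
  right_inv u := by ext <;> simp
  norm_map' u := by
    refine (sq_eq_sq₀ (norm_nonneg _) (norm_nonneg _)).1 ?_
    rw [norm_sq, norm_sq]
    simp

lemma mp_apply (A : W ≃ₗᵢ[ℝ] W) (u : CW W) : mp A u = ⟨A u.x, A u.y⟩ := rfl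

lemma mp_inc (A : W ≃ₗᵢ[ℝ] W) (w : W) : mp A (inc W w) = inc W (A w) := by
  rw [mp_apply, inc_apply, inc_apply]
  simp

lemma cj_mp (A : W ≃ₗᵢ[ℝ] W) (u : CW W) : cj W (mp A u) = mp A (cj W u) := by
  rw [mp_apply, cj_apply, cj_apply, mp_apply]
  simp

/-- extension of an orthogonal representation -/
def rep {Γ : Type} [Group Γ] (π : Γ →* (W ≃ₗᵢ[ℝ] W)) : Γ →* (CW W ≃ₗᵢ[ℂ] CW W) where
  toFun g := mp (π g)
  map_one' := by
    ext u
    all_goals simp [mp_apply]
  map_mul' g h := by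
    ext u
    all_goals simp [mp_apply]

lemma rep_apply {Γ : Type} [Group Γ] (π : Γ →* (W ≃ₗᵢ[ℝ] W)) (g : Γ) (u : CW W) :
    rep π g u = ⟨π g u.x, π g u.y⟩ := rfl

lemma rep_inc {Γ : Type} [Group Γ] (π : Γ →* (W ≃ₗᵢ[ℝ] W)) (g : Γ) (w : W) :
    rep π g (inc W w) = inc W (π g w) := mp_inc _ _

lemma cj_rep {Γ : Type} [Group Γ] (π : Γ →* (W ≃ₗᵢ[ℝ] W)) (g : Γ) (u : CW W) :
    cj W (rep π g u) = rep π g (cj W u) := cj_mp _ _

end

end CW

end Vale.Agent.P284.H366
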