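import Vale.Agent.P284.H366.LS2

/-!
# Limits of sequences of Hilbert valued equivariant forms on the covering (varying Hilbert spaces)

`VForm C π Φ`: a form of type `(p,0)` on the covering with values in `H`, equivariant under the unitary
representation `π`. `VSeq C U π Φ`: a sequence of such forms (the Hilbert spaces vary), bounded in `L²` and
almost holomorphic. `LimV D U Φ`: its limit, with values in the ultraproduct.
-/

open scoped ContDiff Topology ComplexConjugate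
open MeasureTheory Set Filter Metric

noncomputable section

set_option linter.unusedSectionVars false

namespace Vale.Agent.P284.H366

open Vale.Agent.P272.K Vale.Agent.P272.K.INT Vale.Agent.P284.H513.V Vale.Agent.P284.H894
  Vale.Agent.P284.H894.V

variable {n p : ℕ} {Γ : Type} [Group Γ] {C : Coc n Γ}

/-- an equivariant `H`-valued form of type `(p,0)` on the covering -/
structure VForm (C : Coc n Γ) {H : Type} [NormedAddCommGroup H] [InnerProductSpace ℂ H]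
    (π : Γ →* (H ≃ₗᵢ[ℂ] H)) (Φ : Γ → C.I → Cm n → (Cm n [⋀^Fin p]→ₗ[ℂ] H)) : Prop where
  smooth : ∀ γ a ξ, ∀ z ∈ C.Ω a, ContDiffAt ℝ ∞ (fun y => Φ γ a y ξ) z
  compat : ∀ γ a b, ∀ z ∈ C.O a b, z ∈ C.V a → C.T a b z ∈ C.V b → ∀ ξ,
    Φ γ a z ξ = Φ (γ * C.κ a b z) b (C.T a b z) fun i => fderiv ℂ (C.T a b) z (ξ i)
  equi : ∀ g γ a, ∀ z ∈ C.Ω a, ∀ ξ, Φ (g * γ) a z ξ = π g (Φ γ a z ξ)

section one
variable {H : Type} [NormedAddCommGroup H] [InnerProductSpace ℂ H] {π : Γ →* (H ≃ₗᵢ[ℂ] H)}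
  {Φ : Γ → C.I → Cm n → (Cm n [⋀^Fin p]→ₗ[ℂ] H)}

lemma VForm.one (h : VForm C π Φ) (γ : Γ) (a : C.I) {z : Cm n} (hz : z ∈ C.Ω a)
    (ξ : Fin p → Cm n) : Φ γ a z ξ = π γ (Φ 1 a z ξ) := by
  have := h.equi γ 1 a z hz ξ
  rwa [mul_one] at this

lemma VForm.norm_one (h : VForm C π Φ) (γ : Γ) (a : C.I) {z : Cm n} (hz : z ∈ C.Ω a)
    (ξ : Fin p → Cm n) : ‖Φ γ a z ξ‖ = ‖Φ 1 a z ξ‖ := by
  rw [h.one γ a hz, (π γ).norm_map]

lemma VForm.diff (h : VForm C π Φ) (γ : Γ) (a : C.I) (ξ : Fin p → Cm n) {z : Cm n}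
    (hz : z ∈ C.Ω a) : DifferentiableAt ℝ (fun y => Φ γ a y ξ) z :=
  (h.smooth γ a ξ z hz).differentiableAt (by simp)

lemma VForm.fderiv_one (h : VForm C π Φ) (γ : Γ) (a : C.I) (ξ : Fin p → Cm n) {z : Cm n}
    (hz : z ∈ C.Ω a) (t : Cm n) :
    fderiv ℝ (fun y => Φ γ a y ξ) z t = π γ (fderiv ℝ (fun y => Φ 1 a y ξ) z t) := by
  have e : (fun y => Φ γ a y ξ) =ᶠ[𝓝 z] fun y => π γ (Φ 1 a y ξ) := by
    filter_upwards [isOpen_ball.mem_nhds hz] with y hy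
    exact h.one γ a hy ξ
  rw [e.fderiv_eq]
  have h1 := ((((π γ).toContinuousLinearEquiv : H →L[ℂ] H).restrictScalars ℝ).hasFDerivAt.comp z
    (h.diff 1 a ξ hz).hasFDerivAt).fderiv
  have h2 := congrArg (fun L => L t) h1
  exact h2

lemma VForm.DB_one (h : VForm C π Φ) (γ : Γ) (a : C.I) (ξ : Fin p → Cm n) {z : Cm n}
    (hz : z ∈ C.Ω a) (t : Cm n) :
    DB (fun y => Φ γ a y ξ) z t = π γ (DB (fun y => Φ 1 a y ξ) z t) := by
  rw [DB_apply, DB_apply, h.fderiv_one γ a ξ hz, h.fderiv_one γ a ξ hz,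
    (π γ).map_smul, (π γ).map_add, (π γ).map_smul]

lemma VForm.norm_DB_one (h : VForm C π Φ) (γ : Γ) (a : C.I) (ξ : Fin p → Cm n) {z : Cm n}
    (hz : z ∈ C.Ω a) : ‖DB (fun y => Φ γ a y ξ) z‖ = ‖DB (fun y => Φ 1 a y ξ) z‖ := by
  refine le_antisymm ?_ ?_
  · refine ContinuousLinearMap.opNorm_le_bound _ (norm_nonneg _) fun t => ?_
    rw [h.DB_one γ a ξ hz, (π γ).norm_map]
    exact ContinuousLinearMap.le_opNorm _ _
  · refine ContinuousLinearMap.opNorm_le_bound _ (norm_nonneg _) fun t => ?_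
    rw [← (π γ).norm_map, ← h.DB_one γ a ξ hz]
    exact ContinuousLinearMap.le_opNorm _ _

lemma VForm.int1 (h : VForm C π Φ) (γ : Γ) (a : C.I) (ξ : Fin p → Cm n) :
    IntegrableOn (fun z => ‖Φ γ a z ξ‖ ^ 2) (C.V a) := by
  refine intOn ?_
  intro z hz
  exact (((h.smooth γ a ξ z (cb_sub_Ω C a hz)).continuousAt.norm).pow 2).continuousWithinAt

lemma VForm.int2 (h : VForm C π Φ) (γ : Γ) (a : C.I) (ξ : Fin p → Cm n) :
    IntegrableOn (fun z => ‖DB (fun y => Φ γ a y ξ) z‖ ^ 2) (C.V a) := by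
  refine intOn ?_
  intro z hz
  have h1 := h.smooth γ a ξ z (cb_sub_Ω C a hz)
  have h2 : ContinuousAt (fderiv ℝ (fun y => Φ γ a y ξ)) z :=
    (h1.fderiv_right (m := 0) (by simp)).continuousAt
  have h3 : ContinuousAt (DB fun y => Φ γ a y ξ) z := by
    unfold DB alp
    exact (h2.add ((h2.clm_comp continuousAt_const).const_smul Complex.I)).const_smul (1 / 2 : ℂ)
  exact ((h3.norm).pow 2).continuousWithinAt

/-- the form is closed -/
def VClosed (C : Coc n Γ) (Φ : Γ → C.I → Cm n → (Cm n [⋀^Fin p]→ₗ[ℂ] H)) : Prop :=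
  ∀ γ a, ∀ y ∈ C.Ω a, ∀ ξ : Fin (p + 1) → Cm n,
    ∑ i : Fin (p + 1), (-1 : ℂ) ^ (i : ℕ) • DH (fun y => Φ γ a y (i.removeNth ξ)) y (ξ i) = 0

end one

section seq
variable {H : ℕ → Type} [∀ k, NormedAddCommGroup (H k)] [∀ k, InnerProductSpace ℂ (H k)]

/-- a sequence of forms, bounded in `L²`, almost holomorphic -/
structure VSeq (C : Coc n Γ) (U : Ultrafilter ℕ) (π : ∀ k, Γ →* (H k ≃ₗᵢ[ℂ] H k))
    (Φ : ∀ k, Γ → C.I → Cm n → (Cm n [⋀^Fin p]→ₗ[ℂ] H k)) : Prop where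
  form : ∀ k, VForm C (π k) (Φ k)
  bd : ∀ a ξ, ∃ B : ℝ, ∀ k, ∫ z in C.V a, ‖Φ k 1 a z ξ‖ ^ 2 ≤ B
  dbar : ∀ a ξ, Tendsto (fun k => ∫ z in C.V a, ‖DB (fun y => Φ k 1 a y ξ) z‖ ^ 2) U (𝓝 0)

variable [∀ k, CompleteSpace (H k)] {U : Ultrafilter ℕ} {π : ∀ k, Γ →* (H k ≃ₗᵢ[ℂ] H k)}
  {Φ : ∀ k, Γ → C.I → Cm n → (Cm n [⋀^Fin p]→ₗ[ℂ] H k)}

lemma VSeq.fseq (h : VSeq C U π Φ) (D : MD C) (γ : Γ) (a : C.I) :
    FSeq U (C.c a) (D.ρ a + D.δ) fun k => Φ k γ a := by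
  intro ξ
  have hV : closedBall (C.c a) (D.ρ a + D.δ) ⊆ C.V a := D.cb_sub a
  have hV' : ball (C.c a) (D.ρ a + D.δ) ⊆ C.V a := ball_subset_closedBall.trans hV
  have hpos : 0 < D.ρ a + D.δ := by have := D.low a; have := D.pos; have := C.r_pos a; linarith
  refine ⟨hpos, fun k z hz => (h.form k).smooth γ a ξ z (V_sub_Ω C a (hV hz)), ?_, ?_⟩
  · obtain ⟨B, hB⟩ := h.bd a ξ
    refine ⟨B, fun k => le_trans ?_ (hB k)⟩
    have e : ∫ z in ball (C.c a) (D.ρ a + D.δ), ‖Φ k γ a z ξ‖ ^ 2 =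
        ∫ z in ball (C.c a) (D.ρ a + D.δ), ‖Φ k 1 a z ξ‖ ^ 2 :=
      setIntegral_congr_fun measurableSet_ball fun z hz => by
        show _ = _
        rw [(h.form k).norm_one γ a (V_sub_Ω C a (hV' hz)) ξ]
    rw [e]
    exact setIntegral_mono_set ((h.form k).int1 1 a ξ) (Eventually.of_forall fun z => sq_nonneg _)
      hV'.eventuallyLE
  · refine squeeze_zero (fun k => integral_nonneg fun z => sq_nonneg _) (fun k => ?_) (h.dbar a ξ)
    have e : ∫ z in ball (C.c a) (D.ρ a + D.δ), ‖DB (fun y => Φ k γ a y ξ) z‖ ^ 2 =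
        ∫ z in ball (C.c a) (D.ρ a + D.δ), ‖DB (fun y => Φ k 1 a y ξ) z‖ ^ 2 :=
      setIntegral_congr_fun measurableSet_ball fun z hz => by
        show _ = _
        rw [(h.form k).norm_DB_one γ a ξ (V_sub_Ω C a (hV' hz))]
    rw [e]
    exact setIntegral_mono_set ((h.form k).int2 1 a ξ) (Eventually.of_forall fun z => sq_nonneg _)
      hV'.eventuallyLE

/-- **the limit form** -/
def LimV (D : MD C) (U : Ultrafilter ℕ) (Φ : ∀ k, Γ → C.I → Cm n → (Cm n [⋀^Fin p]→ₗ[ℂ] H k))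
    (γ : Γ) (a : C.I) (z : Cm n) : Cm n [⋀^Fin p]→L[ℂ] UP H U :=
  SF U D.η (fun k => Φ k γ a) z

variable (D : MD C)

lemma LimV_apply (h : VSeq C U π Φ) (γ : Γ) (a : C.I) {z : Cm n} (hz : z ∈ D.Q a)
    (ξ : Fin p → Cm n) :
    LimV D U Φ γ a z ξ = slim U D.η (fun k y => Φ k γ a y ξ) z :=
  SF_apply (h.fseq D γ a) D.mol D.pos.le le_rfl hz ξ

lemma LimV_analyticAt (h : VSeq C U π Φ) (γ : Γ) (a : C.I) {z : Cm n} (hz : z ∈ D.Q a) :
    AnalyticAt ℂ (LimV D U Φ γ a) z :=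
  SF_analyticAt (h.fseq D γ a) D.mol le_rfl hz

lemma LimV_closed (h : VSeq C U π Φ) (hcl : ∀ k, VClosed C (Φ k)) (γ : Γ) (a : C.I) {z : Cm n}
    (hz : z ∈ D.Q a) : extDeriv (LimV D U Φ γ a) z = 0 := by
  refine SF_closed (h.fseq D γ a) D.mol D.pos.le le_rfl (fun k y hy ξ => ?_) hz
  exact hcl k γ a y (V_sub_Ω C a (D.cb_sub a (ball_subset_closedBall hy))) ξ

lemma LimV_change (h : VSeq C U π Φ) (γ : Γ) (a b : C.I) {z : Cm n} (hO : z ∈ C.O a b)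
    (hz : z ∈ D.Q a) (hz' : C.T a b z ∈ D.Q b) :
    LimV D U Φ γ a z = (LimV D U Φ (γ * C.κ a b z) b (C.T a b z)).compContinuousLinearMap
      (fderiv ℂ (C.T a b) z) := by
  refine SF_change C (h.fseq D γ a) (h.fseq D (γ * C.κ a b z) b) D.mol D.pos.le le_rfl le_rfl hz hO
    (D.Q_sub a hz) (D.Q_sub b hz') hz' ?_
  have hc : ContinuousAt (C.T a b) z :=
    ((C.T_holo a b).differentiableAt ((C.O_open a b).mem_nhds hO)).continuousAt
  filter_upwards [(C.O_open a b).mem_nhds hO, (D.Q_open a).mem_nhds hz,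
    hc.eventually ((D.Q_open b).mem_nhds hz'), C.κ_loc a b z hO] with y h1 h2 h3 h4 k ξ
  rw [← h4]
  exact (h.form k).compat γ a b y h1 (D.Q_sub a h2) (D.Q_sub b h3) ξ

lemma LimV_equiv (h : VSeq C U π Φ) (g γ : Γ) (a : C.I) {z : Cm n} (hz : z ∈ D.Q a)
    (ξ : Fin p → Cm n) :
    LimV D U Φ (g * γ) a z ξ = upRep U π g (LimV D U Φ γ a z ξ) := by
  rw [LimV_apply D h _ a hz, LimV_apply D h _ a hz, slim, slim,
    upRep_mk _ _ (slim_bd (h.fseq D γ a) D.mol D.pos.le le_rfl hz ξ)]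
  congr 1
  funext k
  have e : mv D.η (fun y => Φ k (g * γ) a y ξ) z = mv D.η (fun y => π k g (Φ k γ a y ξ)) z := by
    refine mv_congr (c := C.c a) (r := D.ρ a) D.mol.zero (ball_subset_closedBall hz) le_rfl fun y hy => ?_
    exact (h.form k).equi g γ a y (V_sub_Ω C a (D.cb_sub a (ball_subset_closedBall hy))) ξ
  rw [e]
  refine mv_clm_loc D.mol le_rfl hz (g := fun y => Φ k γ a y ξ) ?_
    ((π k g).toContinuousLinearEquiv : H k →L[ℂ] H k)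
  exact ((h.fseq D γ a ξ).contOn k).mono ball_subset_closedBall

/-- **quadratic convergence** -/
lemma LimV_quad (h : VSeq C U π Φ) (γ : Γ) (a : C.I) {ψ : Cm n → ℂ}
    (hψ : ContinuousOn ψ (closedBall (C.c a) (D.ρ a))) (ξ ξ' : Fin p → Cm n) :
    Tendsto (fun k => ∫ z in D.Q a, ψ z * inner ℂ (Φ k γ a z ξ) (Φ k γ a z ξ')) U
      (𝓝 (∫ z in D.Q a, ψ z * inner ℂ (LimV D U Φ γ a z ξ) (LimV D U Φ γ a z ξ'))) := by
  have h1 := quad (h.fseq D γ a ξ) (h.fseq D γ a ξ') D.mol D.pos.le le_rfl hψ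
  have e1 : ∫ z in D.Q a, ψ z * inner ℂ (LimV D U Φ γ a z ξ) (LimV D U Φ γ a z ξ') =
      ∫ z in ball (C.c a) (D.ρ a), ψ z * inner ℂ (slim U D.η (fun k y => Φ k γ a y ξ) z)
        (slim U D.η (fun k y => Φ k γ a y ξ') z) := by
    refine setIntegral_congr_fun measurableSet_ball fun z hz => ?_
    rw [LimV_apply D h γ a hz, LimV_apply D h γ a hz]
  rw [e1]
  exact h1

/-- if the limit vanishes on the ball number `a`, the sequence tends to `0` in `L²` -/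
lemma LimV_zero (h : VSeq C U π Φ) (γ : Γ) (a : C.I) (h0 : ∀ z ∈ D.Q a, LimV D U Φ γ a z = 0)
    (ξ : Fin p → Cm n) :
    Tendsto (fun k => ∫ z in D.Q a, ‖Φ k γ a z ξ‖ ^ 2) U (𝓝 0) :=
  tendsto_zero_of_slim (h.fseq D γ a ξ) D.mol D.pos.le le_rfl (fun z hz => by
    have := h0 z hz
    rw [← LimV_apply D h γ a hz, this]
    rfl)

end seq

end Vale.Agent.P284.H366
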