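import Vale.Agent.P284.H366.V.Lim
import Vale.Agent.P284.H366.V.CW
import Vale.Agent.P284.H366.LS3
import Vale.Agent.P284.H287.T.Defs

/-!
# The forms `θ_1 ∧ … ∧ θ_q ∧ ∂u` for Hilbert valued maps `u`
-/

open scoped Manifold ContDiff Topology Pointwise ComplexConjugate ComplexOrder Matrix InnerProductSpace
open Filter Set Metric MeasureTheory

noncomputable section

set_option linter.unusedSectionVars false

namespace Vale.Agent.P284.H366

open Vale.Agent.P272.K Vale.Agent.P272.K.INT Vale.Agent.P284.H513.V Vale.Agent.P284.H894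
  Vale.Agent.P284.H894.V Vale.Agent.P284.H402.A

/-! ### the algebra -/

section alg
variable {n q : ℕ}

lemma wd_bm_cramer (θ : Matrix (Fin n) (Fin q) ℂ) (α : Fin n → ℂ) (ξ : Fin (q + 1) → Cm n) :
    wd (bm θ α) ξ = (vm (bm θ 0) ξ).cramer (Matrix.of ξ *ᵥ α) (Fin.last q) := by
  rw [wd_apply, Matrix.cramer_apply]
  congr 1
  ext i j
  refine Fin.lastCases ?_ (fun j => ?_) j
  · rw [Matrix.updateCol_self]
    simp only [vm, Matrix.of_apply, bm_last]
    rfl
  · rw [Matrix.updateCol_ne (Fin.castSucc_lt_last j).ne]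
    simp only [vm, Matrix.of_apply, bm_castSucc]

/-- linearity in the last form -/
lemma wd_bm_lin (θ : Matrix (Fin n) (Fin q) ℂ) (α : Fin n → ℂ) (ξ : Fin (q + 1) → Cm n) :
    wd (bm θ α) ξ = ∑ l, wd (bm θ (Pi.single l 1)) ξ * α l := by
  have h : α = ∑ l, α l • (Pi.single l 1 : Fin n → ℂ) := by
    funext i
    simp [Finset.sum_apply, Pi.single_apply]
  conv_lhs => rw [h]
  rw [wd_bm_cramer, Matrix.mulVec_sum, map_sum, Finset.sum_apply]
  refine Finset.sum_congr rfl fun l _ => ?_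
  rw [Matrix.mulVec_smul, map_smul, Pi.smul_apply, ← wd_bm_cramer, smul_eq_mul, mul_comm]

variable {H : Type} [NormedAddCommGroup H] [InnerProductSpace ℂ H]

/-- the exterior product of the columns of `θ` and of the `H`-valued form `B` -/
def wdV (θ : Matrix (Fin n) (Fin q) ℂ) (B : Fin n → H) : Cm n [⋀^Fin (q + 1)]→ₗ[ℂ] H :=
  ∑ l, (LinearMap.toSpanSingleton ℂ H (B l)).compAlternatingMap
    (wd (bm θ (Pi.single l 1))).toAlternatingMap

lemma wdV_apply (θ : Matrix (Fin n) (Fin q) ℂ) (B : Fin n → H) (ξ : Fin (q + 1) → Cm n) :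
    wdV θ B ξ = ∑ l, wd (bm θ (Pi.single l 1)) ξ • B l := by
  rw [wdV, alt_sum_apply]
  rfl

lemma clm_wdV {H' : Type} [NormedAddCommGroup H'] [InnerProductSpace ℂ H'] (A : H →ₗ[ℂ] H')
    (θ : Matrix (Fin n) (Fin q) ℂ) (B : Fin n → H) (ξ : Fin (q + 1) → Cm n) :
    A (wdV θ B ξ) = wdV θ (fun l => A (B l)) ξ := by
  rw [wdV_apply, wdV_apply, map_sum]
  exact Finset.sum_congr rfl fun l _ => map_smul _ _ _

lemma wdV_complex (θ : Matrix (Fin n) (Fin q) ℂ) (B : Fin n → ℂ) (ξ : Fin (q + 1) → Cm n) :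
    wdV θ B ξ = wd (bm θ B) ξ := by
  rw [wdV_apply, wd_bm_lin]
  rfl

lemma inner_wdV (x : H) (θ : Matrix (Fin n) (Fin q) ℂ) (B : Fin n → H) (ξ : Fin (q + 1) → Cm n) :
    ⟪x, wdV θ B ξ⟫_ℂ = wd (bm θ fun l => ⟪x, B l⟫_ℂ) ξ := by
  rw [← wdV_complex]
  exact clm_wdV (innerₛₗ ℂ x) θ B ξ

lemma ext_inner_wdV {v w : H} (h : ∀ x : H, ⟪x, v⟫_ℂ = ⟪x, w⟫_ℂ) : v = w := ext_inner_left ℂ h

/-- the value on `(u, v)`, `u` dual to the columns of `θ`, `v` vertical -/
lemma wdV_snoc (θ : Matrix (Fin n) (Fin q) ℂ) (B : Fin n → H) {u : Fin q → Cm n}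
    (hu : vm θ u = 1) {v : Cm n} (hv : ∀ r, ∑ l, v l * θ l r = 0) :
    wdV θ B (Fin.snoc u v) = ∑ l, v l • B l := by
  refine ext_inner_left ℂ fun x => ?_
  rw [inner_wdV, inner_sum, wd_apply]
  have e1 : (∑ l, ⟪x, v l • B l⟫_ℂ) = ∑ l, v l * ⟪x, B l⟫_ℂ :=
    Finset.sum_congr rfl fun l _ => inner_smul_right _ _ _
  rw [e1]
  set M := vm (bm θ fun l => ⟪x, B l⟫_ℂ) (Fin.snoc u v : Fin (q + 1) → Cm n) with hM
  have h1 : ∀ j : Fin q, M (Fin.last q) j.castSucc = 0 := by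
    intro j
    simp only [hM, vm, Matrix.of_apply, bm_castSucc, Fin.snoc_last]
    exact hv j
  have h2 : M (Fin.last q) (Fin.last q) = ∑ l, v l * ⟪x, B l⟫_ℂ := by
    simp only [hM, vm, Matrix.of_apply, bm_last, Fin.snoc_last]
  have h3 : M.submatrix Fin.castSucc Fin.castSucc = vm θ u := by
    ext i j
    simp only [hM, vm, Matrix.submatrix_apply, Matrix.of_apply, bm_castSucc, Fin.snoc_castSucc]
  rw [Matrix.det_succ_row M (Fin.last q), Fin.sum_univ_castSucc, Finset.sum_eq_zero, zero_add, h2]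
  · have e3 : (M.submatrix (Fin.last q).succAbove (Fin.last q).succAbove) = vm θ u := by
      rw [← h3]
      ext i j
      simp [Fin.succAbove_last]
    rw [e3, hu, Matrix.det_one]
    have e4 : (-1 : ℂ) ^ (((Fin.last q : Fin (q + 1)) : ℕ) + ((Fin.last q : Fin (q + 1)) : ℕ)) = 1 := by
      rw [← two_mul, pow_mul]
      simp
    rw [e4]
    ring
  · intro j _
    rw [h1 j]
    ring

end alg

/-! ### the calculus -/

section cal
variable {n : ℕ} {H : Type} [NormedAddCommGroup H] [InnerProductSpace ℂ H]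

lemma inner_fderiv {u : Cm n → H} {z : Cm n} (hu : DifferentiableAt ℝ u z) (x : H) (t : Cm n) :
    ⟪x, fderiv ℝ u z t⟫_ℂ = fderiv ℝ (fun y => ⟪x, u y⟫_ℂ) z t := by
  have h1 := (((innerSL ℂ x).restrictScalars ℝ).hasFDerivAt.comp z hu.hasFDerivAt).fderiv
  exact (congrArg (fun L => L t) h1).symm

lemma inner_DH {u : Cm n → H} {z : Cm n} (hu : DifferentiableAt ℝ u z) (x : H) (t : Cm n) :
    ⟪x, DH u z t⟫_ℂ = DH (fun y => ⟪x, u y⟫_ℂ) z t := by
  rw [DH, DH, inner_smul_right, inner_sub_right, inner_smul_right, inner_fderiv hu, inner_fderiv hu]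
  rfl

lemma inner_DB {u : Cm n → H} {z : Cm n} (hu : DifferentiableAt ℝ u z) (x : H) (t : Cm n) :
    ⟪x, DB u z t⟫_ℂ = DB (fun y => ⟪x, u y⟫_ℂ) z t := by
  rw [DB_apply, DB_apply, inner_smul_right, inner_add_right, inner_smul_right, inner_fderiv hu,
    inner_fderiv hu]
  rfl

lemma DH_single (g : Cm n → ℂ) (z : Cm n) (l : Fin n) : DH g z (Pi.single l 1) = dz l g z := by
  rw [DH_complex, Finset.sum_eq_single l]
  · simp
  · intro j _ hj
    simp [hj]
  · simp

lemma DH_smooth {u : Cm n → H} {z : Cm n} (hu : ContDiffAt ℝ ∞ u z) (t : Cm n) :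
    ContDiffAt ℝ ∞ (fun y => DH u y t) z := by
  unfold DH
  have h1 : ContDiffAt ℝ ∞ (fderiv ℝ u) z := hu.fderiv_right (m := ∞) (by simp)
  have h2 : ∀ t : Cm n, ContDiffAt ℝ ∞ (fun y => fderiv ℝ u y t) z := fun t =>
    h1.clm_apply contDiffAt_const
  exact ((h2 t).sub ((h2 _).const_smul Complex.I)).const_smul (1 / 2 : ℂ)

end cal

/-! ### maps of the covering -/

section
variable {n q : ℕ} {Γ : Type} [Group Γ] {C : Coc n Γ} {H : Type} [NormedAddCommGroup H]
  [InnerProductSpace ℂ H] {π : Γ →* (H ≃ₗᵢ[ℂ] H)} {u : Γ → C.I → Cm n → H}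

/-- a smooth equivariant map of the covering into `H` -/
structure VMap (C : Coc n Γ) (π : Γ →* (H ≃ₗᵢ[ℂ] H)) (u : Γ → C.I → Cm n → H) : Prop where
  smooth : ∀ γ a, ∀ z ∈ C.Ω a, ContDiffAt ℝ ∞ (u γ a) z
  compat : ∀ γ a b, ∀ z ∈ C.O a b, u γ a z = u (γ * C.κ a b z) b (C.T a b z)
  equi : ∀ g γ a, ∀ z ∈ C.Ω a, u (g * γ) a z = π g (u γ a z)

/-- the map defined by a section with values in a real Hilbert space -/
theorem vmap_of_sec {W : Type} [NormedAddCommGroup W] [InnerProductSpace ℝ W]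
    {π : Γ →* (W ≃ₗᵢ[ℝ] W)} {u : Γ → C.I → Cm n → W} (h : H287.T.Sec C π 0 u) :
    VMap C (CW.rep π) fun γ a z => CW.inc W (u γ a z) where
  smooth γ a z hz := (CW.inc W).contDiff.contDiffAt.comp z (h.smooth γ a z hz)
  compat γ a b z hz := congrArg _ (h.compat γ a b z hz)
  equi g γ a z hz := by
    rw [h.equi g γ a z hz, Pi.zero_apply, add_zero, CW.rep_inc]

/-- **the form `θ_1 ∧ … ∧ θ_q ∧ ∂u`** -/
def vtf (θ : HF C q) (u : Γ → C.I → Cm n → H) (γ : Γ) (a : C.I) (z : Cm n) :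
    Cm n [⋀^Fin (q + 1)]→ₗ[ℂ] H :=
  wdV (θ.th a z) fun l => DH (u γ a) z (Pi.single l 1)

lemma vtf_apply (θ : HF C q) (u : Γ → C.I → Cm n → H) (γ : Γ) (a : C.I) (z : Cm n)
    (ξ : Fin (q + 1) → Cm n) : vtf θ u γ a z ξ =
      ∑ l, wd (bm (θ.th a z) (Pi.single l 1)) ξ • DH (u γ a) z (Pi.single l 1) := wdV_apply _ _ _

lemma VMap.diff (h : VMap C π u) (γ : Γ) (a : C.I) {z : Cm n} (hz : z ∈ C.Ω a) :
    DifferentiableAt ℝ (u γ a) z := (h.smooth γ a z hz).differentiableAt (by simp)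

lemma inner_vtf (θ : HF C q) (h : VMap C π u) (γ : Γ) (a : C.I) {z : Cm n} (hz : z ∈ C.Ω a)
    (x : H) (ξ : Fin (q + 1) → Cm n) : ⟪x, vtf θ u γ a z ξ⟫_ℂ =
      wd (bm (θ.th a z) fun l => dz l (fun y => ⟪x, u γ a y⟫_ℂ) z) ξ := by
  rw [vtf, inner_wdV]
  congr 3
  funext l
  rw [inner_DH (h.diff γ a hz), DH_single]

lemma inner_smooth (h : VMap C π u) (γ : Γ) (a : C.I) {z : Cm n} (hz : z ∈ C.Ω a) (x : H) :
    ContDiffAt ℝ ∞ (fun y => ⟪x, u γ a y⟫_ℂ) z :=
  ((innerSL ℂ x).restrictScalars ℝ).contDiff.contDiffAt.comp z (h.smooth γ a z hz)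

lemma dz_law {f g : Cm n → ℂ} {a b : C.I} {z : Cm n} (hz : z ∈ C.O a b)
    (hg : DifferentiableAt ℝ g (C.T a b z)) (hfg : f =ᶠ[𝓝 z] fun y => g (C.T a b y)) :
    (fun l => dz l f z) = fun l => ∑ m, dz m g (C.T a b z) *
      fderiv ℂ (C.T a b) z (Pi.single l 1) m := by
  have hT : DifferentiableAt ℂ (C.T a b) z :=
    (C.T_holo a b).differentiableAt ((C.O_open a b).mem_nhds hz)
  have hTr : DifferentiableAt ℝ (C.T a b) z := hT.restrictScalars ℝ
  have e0 : fderiv ℝ (C.T a b) z = (fderiv ℂ (C.T a b) z).restrictScalars ℝ :=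
    hT.fderiv_restrictScalars ℝ
  have h2 : ∀ t, fderiv ℝ f z t = fderiv ℝ g (C.T a b z) (fderiv ℂ (C.T a b) z t) := by
    intro t
    rw [hfg.fderiv_eq]
    have h3 := (hg.hasFDerivAt.comp z hTr.hasFDerivAt).fderiv
    have h4 := congrArg (fun L => L t) h3
    rw [e0] at h4
    exact h4
  funext l
  rw [← DH_single, DH, h2, h2, map_smul (fderiv ℂ (C.T a b) z), ← DH, DH_complex]
  exact Finset.sum_congr rfl fun m _ => mul_comm _ _

theorem vtf_form (θ : HF C q) (h : VMap C π u) : VForm C π (vtf θ u) where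
  smooth γ a ξ z hz := by
    simp only [vtf_apply]
    refine ContDiffAt.sum fun l _ => ?_
    refine ContDiffAt.smul (f := fun y => wd (bm (θ.th a y) (Pi.single l 1)) ξ) ?_
      (DH_smooth (h.smooth γ a z hz) _)
    refine wd_smooth (fun i r => ?_) ξ
    refine Fin.lastCases ?_ (fun r => ?_) r
    · simp only [bm_last]
      exact contDiffAt_const
    · simp only [bm_castSucc]
      exact th_mc θ hz i r
  compat γ a b z hz ha hb ξ := by
    refine ext_inner_left ℂ fun x => ?_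
    have hza : z ∈ C.Ω a := C.O_sub a b hz
    have hzb : C.T a b z ∈ C.Ω b := C.O_sub b a (C.T_mem a b z hz)
    rw [inner_vtf θ h γ a hza, inner_vtf θ h _ b hzb]
    have h1 : (fun y => ⟪x, u γ a y⟫_ℂ) =ᶠ[𝓝 z]
        fun y => (fun w => ⟪x, u (γ * C.κ a b z) b w⟫_ℂ) (C.T a b y) := by
      filter_upwards [(C.O_open a b).mem_nhds hz, C.κ_loc a b z hz] with y hy hk
      rw [h.compat γ a b y hy, hk]
    rw [dz_law hz ((inner_smooth h _ b hzb x).differentiableAt (by simp)) h1]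
    have h2 := θ.change a b z hz
    have h3 : (fun l => ∑ m, dz m (fun w => ⟪x, u (γ * C.κ a b z) b w⟫_ℂ) (C.T a b z) *
        fderiv ℂ (C.T a b) z (Pi.single l 1) m) =
        (Matrix.of fun l m => fderiv ℂ (C.T a b) z (Pi.single l 1) m) *ᵥ
          fun m => dz m (fun w => ⟪x, u (γ * C.κ a b z) b w⟫_ℂ) (C.T a b z) := by
      funext l
      simp only [Matrix.mulVec, dotProduct, Matrix.of_apply]
      exact Finset.sum_congr rfl fun m _ => mul_comm _ _
    have h4 : θ.th a z = (Matrix.of fun l m => fderiv ℂ (C.T a b) z (Pi.single l 1) m) *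
        θ.th b (C.T a b z) := by
      rw [h2]
      congr 1
      ext l m
      have hT := (T_hol C hz).self_of_nhds
      have h5 := jmat_mulVec hT (Pi.single l 1) m
      rw [Finset.sum_eq_single l (fun i _ hi => by rw [Pi.single_eq_of_ne hi, mul_zero])
        (fun h => absurd (Finset.mem_univ _) h), Pi.single_eq_same, mul_one] at h5
      rw [Matrix.of_apply, h5]
      rfl
    rw [h3, h4, bm_mul, wd_mul]
    congr 1
    funext i
    ext m
    rw [Matrix.mulVec, dotProduct]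
    have h6 : ξ i = ∑ l, ξ i l • (Pi.single l 1 : Cm n) := by
      funext i'
      simp [Finset.sum_apply, Pi.single_apply]
    conv_rhs => rw [h6]
    rw [map_sum, Finset.sum_apply]
    refine Finset.sum_congr rfl fun l _ => ?_
    rw [map_smul, Pi.smul_apply, smul_eq_mul, mul_comm]
    rfl
  equi g γ a z hz ξ := by
    rw [vtf, vtf]
    have e : (π g (wdV (θ.th a z) (fun l => DH (u γ a) z (Pi.single l 1)) ξ)) =
        wdV (θ.th a z) (fun l => π g (DH (u γ a) z (Pi.single l 1))) ξ :=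
      clm_wdV ((π g).toLinearEquiv : H →ₗ[ℂ] H) _ _ _
    rw [e]
    congr 2
    funext l
    have h1 : u (g * γ) a =ᶠ[𝓝 z] fun y => π g (u γ a y) := by
      filter_upwards [isOpen_ball.mem_nhds hz] with y hy
      exact h.equi g γ a y hy
    have h2 : ∀ t, fderiv ℝ (u (g * γ) a) z t = π g (fderiv ℝ (u γ a) z t) := by
      intro t
      rw [h1.fderiv_eq]
      have h3 := ((((π g).toContinuousLinearEquiv : H →L[ℂ] H).restrictScalars ℝ).hasFDerivAt.comp z
        (h.diff γ a hz).hasFDerivAt).fderiv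
      exact congrArg (fun L => L t) h3
    rw [DH, DH, h2, h2, (π g).map_smul, (π g).map_sub, (π g).map_smul]

theorem vtf_closed (θ : HF C q) (h : VMap C π u) : VClosed C (vtf θ u) := by
  intro γ a y hy ξ
  refine ext_inner_left ℂ fun x => ?_
  rw [inner_sum, inner_zero_right]
  have hd : ∀ ξ : Fin (q + 1) → Cm n, DifferentiableAt ℝ (fun y => vtf θ u γ a y ξ) y := fun ξ =>
    (vtf_form θ h).diff γ a ξ hy
  have e1 : ∀ i : Fin (q + 1 + 1), ⟪x, (-1 : ℂ) ^ (i : ℕ) •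
      DH (fun y => vtf θ u γ a y (i.removeNth ξ)) y (ξ i)⟫_ℂ = (-1 : ℂ) ^ (i : ℕ) *
      DH (fun y => wd (bm (θ.th a y) fun l => dz l (fun y => ⟪x, u γ a y⟫_ℂ) y)
        (i.removeNth ξ)) y (ξ i) := by
    intro i
    rw [inner_smul_right, inner_DH (hd _)]
    congr 1
    have e2 : (fun y => ⟪x, vtf θ u γ a y (i.removeNth ξ)⟫_ℂ) =ᶠ[𝓝 y]
        fun y => wd (bm (θ.th a y) fun l => dz l (fun y => ⟪x, u γ a y⟫_ℂ) y)
          (i.removeNth ξ) := by
      filter_upwards [isOpen_ball.mem_nhds hy] with w hw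
      exact inner_vtf θ h γ a hw x _
    rw [DH, DH, e2.fderiv_eq]
  simp only [e1]
  have hs : ∀ l, ContDiffAt ℝ ∞ (fun y => dz l (fun y => ⟪x, u γ a y⟫_ℂ) y) y := by
    intro l
    have h1 := DH_smooth (inner_smooth h γ a hy x) (Pi.single l 1)
    simpa only [DH_single] using h1
  refine closed_wd (A := fun y => bm (θ.th a y) fun l => dz l (fun y => ⟪x, u γ a y⟫_ℂ) y)
    (fun l r => ?_) (fun r l m => ?_) ξ
  · refine Fin.lastCases ?_ (fun r => ?_) r
    · simp only [bm_last]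
      exact (hs l).differentiableAt (by simp)
    · simp only [bm_castSucc]
      exact (th_mc θ hy l r).differentiableAt (by simp)
  · refine Fin.lastCases ?_ (fun r => ?_) r
    · simp only [bm_last]
      have h1 : ContDiffAt ℝ 2 (fun y => ⟪x, u γ a y⟫_ℂ) y :=
        (inner_smooth h γ a hy x).of_le
          (WithTop.coe_le_coe.2 le_top : ((2 : ℕ∞) : WithTop ℕ∞) ≤ ((⊤ : ℕ∞) : WithTop ℕ∞))
      exact INT.dz_dz_comm h1
    · simp only [bm_castSucc]
      exact θ.closed a y hy l r m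

end

end Vale.Agent.P284.H366
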